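import Mathlib
import Vale.Agent.Lib.P248.helper25.ABDefs

/-!
P248, job AB3: the coordinate section of the anti-blocking dual is the dual of the section.
-/

namespace Vale.Agent.Lib.P248.H23

open Vale.Agent.Lib.P248.H25 MeasureTheory
open scoped ENNReal

theorem sec_dual {n : ℕ} {A : Set (Fin (n + 1) → ℝ)} (h : AB A) (i : Fin (n + 1)) :
    sec (dual A) i = dual (sec A i) := by
  ext z'
  constructor
  · intro hL
    have hL' : (∀ j, 0 ≤ (i.insertNth (0 : ℝ) z' : Fin (n + 1) → ℝ) j) ∧
        ∀ x ∈ A, ∑ j, x j * (i.insertNth (0 : ℝ) z' : Fin (n + 1) → ℝ) j ≤ 1 := hL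
    refine ⟨?_, ?_⟩
    · intro k
      have := hL'.1 (i.succAbove k)
      rwa [Fin.insertNth_apply_succAbove] at this
    · intro z hz
      have hz' : (i.insertNth (0 : ℝ) z : Fin (n + 1) → ℝ) ∈ A := hz
      have := hL'.2 _ hz'
      rw [Fin.sum_univ_succAbove _ i] at this
      simp only [Fin.insertNth_apply_same, Fin.insertNth_apply_succAbove, mul_zero,
        zero_add] at this
      exact this
  · intro hR
    have hR' : (∀ k, 0 ≤ z' k) ∧ ∀ z ∈ sec A i, ∑ k, z k * z' k ≤ 1 := hR
    show (∀ j, 0 ≤ (i.insertNth (0 : ℝ) z' : Fin (n + 1) → ℝ) j) ∧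
        ∀ x ∈ A, ∑ j, x j * (i.insertNth (0 : ℝ) z' : Fin (n + 1) → ℝ) j ≤ 1
    refine ⟨?_, ?_⟩
    · rw [Fin.forall_iff_succAbove i]
      refine ⟨?_, ?_⟩
      · rw [Fin.insertNth_apply_same]
      · intro k
        rw [Fin.insertNth_apply_succAbove]
        exact hR'.1 k
    · intro x hx
      have hz : (fun k => x (i.succAbove k)) ∈ sec A i := by
        show (i.insertNth (0 : ℝ) (fun k => x (i.succAbove k)) : Fin (n + 1) → ℝ) ∈ A
        apply h.2 x hx
        rw [Fin.forall_iff_succAbove i]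
        refine ⟨?_, ?_⟩
        · rw [Fin.insertNth_apply_same]
          exact ⟨le_refl _, h.1 x hx i⟩
        · intro k
          rw [Fin.insertNth_apply_succAbove]
          exact ⟨h.1 x hx _, le_refl _⟩
      have := hR'.2 _ hz
      rw [Fin.sum_univ_succAbove _ i]
      simp only [Fin.insertNth_apply_same, Fin.insertNth_apply_succAbove, mul_zero, zero_add]
      exact this

end Vale.Agent.Lib.P248.H23
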