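import Mathlib
import Vale.Agent.Lib.P248.helper25.ABDefs

/-!
P248, anti-blocking route: the orthant pieces of a measurable set have total volume at most the
volume of the set (independent copy of the skeleton lemma `sum_vol_piece_le`).
-/

namespace Vale.Agent.Lib.P248.H23

open Vale.Agent.Lib.P248.H25 MeasureTheory
open scoped ENNReal

theorem refl_apply {n : ℕ} (σ : Fin n → Bool) (x : Fin n → ℝ) (i : Fin n) :
    refl σ x i = if σ i then x i else -x i := rfl

theorem refl_refl {n : ℕ} (σ : Fin n → Bool) (x : Fin n → ℝ) : refl σ (refl σ x) = x := by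
  funext i
  rw [refl_apply, refl_apply]
  cases σ i <;> simp

theorem measurePreserving_refl {n : ℕ} (σ : Fin n → Bool) :
    MeasurePreserving (refl σ) (volume : Measure (Fin n → ℝ)) volume := by
  have h : ∀ i : Fin n, MeasurePreserving (fun t : ℝ => if σ i then t else -t) volume volume := by
    intro i
    cases σ i
    · simpa using Measure.measurePreserving_neg (volume : Measure ℝ)
    · simp only [if_true]
      exact MeasurePreserving.id volume
  exact volume_preserving_pi h

/-- The closed orthant with sign pattern `σ`. -/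
def orth {n : ℕ} (σ : Fin n → Bool) : Set (Fin n → ℝ) := {x | ∀ i, 0 ≤ refl σ x i}

theorem measurableSet_orth {n : ℕ} (σ : Fin n → Bool) : MeasurableSet (orth σ) := by
  have : orth σ = ⋂ i, {x : Fin n → ℝ | 0 ≤ if σ i then x i else -x i} := by
    ext x
    simp only [orth, Set.mem_ofPred_eq, Set.mem_iInter, refl_apply]
  rw [this]
  refine MeasurableSet.iInter fun i => ?_
  cases σ i
  · simp only [Bool.false_eq_true, if_false]
    exact measurableSet_le measurable_const (measurable_pi_apply i).neg
  · simp only [if_true]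
    exact measurableSet_le measurable_const (measurable_pi_apply i)

theorem piece_eq_preimage {n : ℕ} (K : Set (Fin n → ℝ)) (σ : Fin n → Bool) :
    piece K σ = refl σ ⁻¹' (K ∩ orth σ) := by
  ext z
  show ((∀ i, 0 ≤ z i) ∧ refl σ z ∈ K) ↔ (refl σ z ∈ K ∧ ∀ i, 0 ≤ refl σ (refl σ z) i)
  rw [refl_refl]
  exact and_comm

theorem volume_piece {n : ℕ} {K : Set (Fin n → ℝ)} (hK : MeasurableSet K) (σ : Fin n → Bool) :
    volume (piece K σ) = volume (K ∩ orth σ) := by
  rw [piece_eq_preimage]
  exact (measurePreserving_refl σ).measure_preimage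
    (hK.inter (measurableSet_orth σ)).nullMeasurableSet

theorem volume_hyperplane {n : ℕ} (i : Fin n) :
    volume {x : Fin n → ℝ | x i = 0} = 0 := by
  rw [volume_pi]
  exact Measure.pi_hyperplane _ i 0

theorem aedisjoint_orth {n : ℕ} {σ τ : Fin n → Bool} (h : σ ≠ τ) :
    AEDisjoint (volume : Measure (Fin n → ℝ)) (orth σ) (orth τ) := by
  obtain ⟨i, hi⟩ : ∃ i, σ i ≠ τ i := by
    by_contra hcon
    exact h (funext fun i => Classical.byContradiction fun hi => hcon ⟨i, hi⟩)
  have hsub : orth σ ∩ orth τ ⊆ {x : Fin n → ℝ | x i = 0} := by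
    intro x hx
    have h1 : 0 ≤ refl σ x i := hx.1 i
    have h2 : 0 ≤ refl τ x i := hx.2 i
    rw [refl_apply] at h1 h2
    show x i = 0
    cases hs : σ i <;> cases ht : τ i <;> rw [hs, ht] at hi <;> rw [hs] at h1 <;> rw [ht] at h2
    · exact absurd rfl hi
    · simp only [Bool.false_eq_true, if_false, if_true] at h1 h2
      linarith
    · simp only [Bool.false_eq_true, if_false, if_true] at h1 h2
      linarith
    · exact absurd rfl hi
  exact measure_mono_null hsub (volume_hyperplane i)

theorem sum_vol_piece_le {n : ℕ} {K : Set (Fin n → ℝ)} (hK : MeasurableSet K) :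
    ∑ σ : Fin n → Bool, volume (piece K σ) ≤ volume K := by
  have h1 : ∑ σ : Fin n → Bool, volume (piece K σ)
      = ∑ σ : Fin n → Bool, volume (K ∩ orth σ) :=
    Finset.sum_congr rfl fun σ _ => volume_piece hK σ
  have hd : Pairwise (Function.onFun (AEDisjoint (volume : Measure (Fin n → ℝ)))
      fun σ : Fin n → Bool => K ∩ orth σ) := by
    intro σ τ hne
    exact (aedisjoint_orth hne).mono Set.inter_subset_right Set.inter_subset_right
  have h2 : volume (⋃ σ : Fin n → Bool, K ∩ orth σ)
      = ∑ σ : Fin n → Bool, volume (K ∩ orth σ) := by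
    rw [measure_iUnion₀ hd fun σ => (hK.inter (measurableSet_orth σ)).nullMeasurableSet,
      tsum_fintype]
  rw [h1, ← h2]
  exact measure_mono (Set.iUnion_subset fun σ => Set.inter_subset_left)

end Vale.Agent.Lib.P248.H23
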